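import Mathlib

namespace Vale.Agent.P033

open Finset

/-- The polynomial function attached to an integer sequence. -/
def F {A : Type} [CommRing A] (c : ℕ → ℤ) (n : ℕ) (y : A) : A :=
  ∑ k ∈ range n, (c k : A) * y ^ k

/-- The group ring identity, in evaluated form. -/
def Perfect (c : ℕ → ℤ) (n : ℕ) : Prop :=
  ∀ (A : Type) [CommRing A] (y z : A), y ^ n = 1 → y * z = 1 → F c n y * F c n z = (n : A)

lemma map_F {A B : Type} [CommRing A] [CommRing B] (φ : A →+* B) (c : ℕ → ℤ) (n : ℕ) (y : A) :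
    φ (F c n y) = F c n (φ y) := by
  simp [F, map_sum]

lemma perfect_of_auto (m : ℕ) (c : ℕ → ℤ)
    (h : ∀ t : Fin (m + 1), ∑ b : Fin (m + 1), c (b + t : Fin (m + 1)).val * c b.val
      = if t = 0 then ((m + 1 : ℕ) : ℤ) else 0) : Perfect c (m + 1) := by
  intro A _ y z hy hyz
  have hadd : ∀ a b : Fin (m + 1), y ^ (a + b).val = y ^ a.val * y ^ b.val := by
    intro a b
    rw [Fin.val_add, ← pow_add]
    exact (pow_eq_pow_mod _ hy).symm
  have hsub : ∀ b t : Fin (m + 1), y ^ (b + t).val * z ^ b.val = y ^ t.val := by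
    intro b t
    rw [hadd]
    have : y ^ b.val * z ^ b.val = 1 := by rw [← mul_pow, hyz, one_pow]
    calc y ^ b.val * y ^ t.val * z ^ b.val = (y ^ b.val * z ^ b.val) * y ^ t.val := by ring
      _ = _ := by rw [this, one_mul]
  unfold F
  rw [← Fin.sum_univ_eq_sum_range (fun k => (c k : A) * y ^ k),
    ← Fin.sum_univ_eq_sum_range (fun k => (c k : A) * z ^ k), Finset.sum_mul_sum, Finset.sum_comm]
  have h1 : ∀ b : Fin (m + 1), ∑ a : Fin (m + 1), (c a : A) * y ^ a.val * ((c b : A) * z ^ b.val)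
      = ∑ t : Fin (m + 1), ((c (b + t : Fin (m + 1)).val * c b.val : ℤ) : A) * y ^ t.val := by
    intro b
    rw [← Equiv.sum_comp (Equiv.addLeft b)]
    refine Finset.sum_congr rfl fun t _ => ?_
    simp only [Equiv.coe_addLeft]
    rw [← hsub b t]
    push_cast
    ring
  simp_rw [h1]
  rw [Finset.sum_comm]
  simp_rw [← Finset.sum_mul, ← Int.cast_sum, h]
  simp [apply_ite, ite_mul]

lemma of_matrix (m : ℕ) (H : Matrix (Fin (m + 1)) (Fin (m + 1)) ℝ) (h : Fin (m + 1) → ℝ)
    (hs : ∀ k, h k = 1 ∨ h k = -1) (hH : ∀ i j, H i j = h (j - i))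
    (hHH : H * H.transpose = ((m + 1 : ℕ) : ℝ) • (1 : Matrix (Fin (m + 1)) (Fin (m + 1)) ℝ)) :
    ∃ c : ℕ → ℤ, (∀ k, Odd (c k)) ∧ Perfect c (m + 1) := by
  classical
  let c : ℕ → ℤ := fun k => if hk : k < m + 1 then (if h ⟨k, hk⟩ = 1 then 1 else -1) else 1
  have hc : ∀ k : Fin (m + 1), (c k.val : ℝ) = h k := by
    intro k
    simp only [c, k.isLt, dif_pos, Fin.eta]
    rcases hs k with h1 | h1
    · simp [h1]
    · have : h k ≠ 1 := by rw [h1]; norm_num
      rw [if_neg this, h1]; simp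
  refine ⟨c, ?_, perfect_of_auto m c ?_⟩
  · intro k
    simp only [c]
    split_ifs <;> decide
  · intro t
    have := congrFun (congrFun hHH (-t)) 0
    simp only [Matrix.mul_apply, Matrix.transpose_apply, hH, sub_neg_eq_add, sub_zero,
      Matrix.smul_apply, Matrix.one_apply, neg_eq_zero, smul_eq_mul, mul_ite, mul_one,
      mul_zero] at this
    have h2 : ((∑ b : Fin (m + 1), c (b + t : Fin (m + 1)).val * c b.val : ℤ) : ℝ)
        = ((if t = 0 then ((m + 1 : ℕ) : ℤ) else 0 : ℤ) : ℝ) := by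
      push_cast
      simp_rw [hc]
      rw [this]
      split_ifs <;> simp
    exact_mod_cast h2

end Vale.Agent.P033
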