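import Vale.Agent.P033.Gauss

namespace Vale.Agent.P033

open Finset Polynomial

variable {Γ : Type} [LinearOrderedCommGroupWithZero Γ]

lemma v_coprime {R : Type} [CommRing R] (w : Valuation R Γ) {p m : ℕ} (hp : w (p : R) < 1)
    (h : Nat.Coprime p m) : w (m : R) = 1 := by
  refine le_antisymm (v_nat_le w m) (not_lt.mp fun hm => ?_)
  obtain ⟨a, b, hab⟩ : IsCoprime (p : ℤ) (m : ℤ) := Nat.isCoprime_iff_coprime.mpr h
  have h1 : (a : R) * p + (b : R) * m = 1 := by exact_mod_cast congrArg (Int.cast : ℤ → R) hab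
  have h2 : w ((a : R) * p + (b : R) * m) < 1 := by
    refine w.map_add_lt ?_ ?_
    · rw [map_mul]
      exact lt_of_le_of_lt (mul_le_of_le_one_left zero_le (v_int_le w a)) hp
    · rw [map_mul]
      exact lt_of_le_of_lt (mul_le_of_le_one_left zero_le (v_int_le w b)) hm
  rw [h1, map_one] at h2
  exact lt_irrefl _ h2

lemma v_root_of_unity {R : Type} [CommRing R] (w : Valuation R Γ) {y : R} {n : ℕ} (hn : n ≠ 0)
    (hy : y ^ n = 1) : w y = 1 := by
  have : w y ^ n = 1 := by rw [← map_pow, hy, map_one]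
  exact (pow_eq_one_iff_of_nonneg zero_le hn).mp this

lemma pow_lt_v_nat {R : Type} [CommRing R] (w : Valuation R Γ) {p : ℕ} (hp : p.Prime)
    (hvp : w (p : R) < 1) (hp0 : w (p : R) ≠ 0) (t : Γ) (ht : t ^ p ≤ w (p : R) * t) (k : ℕ)
    (hk : k ≠ 0) : t ^ k < w (k : R) := by
  obtain ⟨s, m, hm, rfl⟩ := Nat.exists_eq_pow_mul_and_not_dvd hk p hp.ne_one
  have hm1 : w (m : R) = 1 := v_coprime w hvp ((Nat.Prime.coprime_iff_not_dvd hp).mpr hm)
  have hm0 : m ≠ 0 := by rintro rfl; simp at hm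
  push_cast
  rw [map_mul, map_pow, hm1, mul_one]
  rcases eq_or_ne t 0 with rfl | ht0
  · rw [zero_pow hk]
    exact zero_lt_iff.mpr (pow_ne_zero _ hp0)
  have htpos : 0 < t := zero_lt_iff.mpr ht0
  obtain ⟨q, rfl⟩ : ∃ q, p = q + 1 := ⟨p - 1, by have := hp.pos; omega⟩
  have hq : t ^ q ≤ w ((q + 1 : ℕ) : R) := by
    rw [pow_succ] at ht
    exact le_of_mul_le_mul_right ht htpos
  have hq0 : q ≠ 0 := by rintro rfl; exact hp.ne_one rfl
  have ht1 : t < 1 := by
    by_contra hcon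
    have : 1 ≤ t ^ q := one_le_pow₀ (not_lt.mp hcon)
    exact absurd (lt_of_le_of_lt (this.trans hq) hvp) (lt_irrefl _)
  have hlt : q * s < (q + 1) ^ s * m := by
    have h1 : 1 + s * q ≤ (1 + q) ^ s := by
      have := one_add_mul_le_pow (a := (q : ℤ)) (by omega) s
      exact_mod_cast this
    have h2 : (q + 1) ^ s ≤ (q + 1) ^ s * m := Nat.le_mul_of_pos_right _ (Nat.pos_of_ne_zero hm0)
    rw [add_comm 1 q] at h1
    rw [mul_comm q s]
    omega
  calc t ^ ((q + 1) ^ s * m) < t ^ (q * s) := pow_lt_pow_right_of_lt_one₀ htpos ht1 hlt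
    _ = (t ^ q) ^ s := pow_mul _ _ _
    _ ≤ _ := by
      have := pow_le_pow_left₀ zero_le hq s
      simpa using this

lemma binom_small {R : Type} [CommRing R] (w : Valuation R Γ) (π : R) (n k : ℕ)
    (hn : w (n : R) ≠ 0) (hk : k ≠ 0) (h : w π ^ k < w (k : R)) :
    w ((n.choose k : R) * π ^ k) < w (n : R) := by
  obtain ⟨k, rfl⟩ := Nat.exists_eq_succ_of_ne_zero hk
  have hn0 : n ≠ 0 := by rintro rfl; simp at hn
  obtain ⟨n, rfl⟩ := Nat.exists_eq_succ_of_ne_zero hn0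
  have h1 : ((n + 1 : ℕ) : R) * (n.choose k : R) = ((n + 1).choose (k + 1) : R) * ((k + 1 : ℕ) : R) := by
    exact_mod_cast congrArg (Nat.cast : ℕ → R) (Nat.add_one_mul_choose_eq n k)
  have h2 : w (((n + 1).choose (k + 1) : ℕ) : R) * w ((k + 1 : ℕ) : R) ≤ w ((n + 1 : ℕ) : R) := by
    rw [← map_mul, ← h1, map_mul]
    exact mul_le_of_le_one_right zero_le (v_nat_le w _)
  rw [map_mul, map_pow]
  rcases eq_or_ne (w (((n + 1).choose (k + 1) : ℕ) : R)) 0 with h0 | h0
  · simp only [Nat.succ_eq_add_one]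
    rw [h0, zero_mul]
    exact zero_lt_iff.mpr hn
  · exact lt_of_lt_of_le (mul_lt_mul_of_pos_left h (zero_lt_iff.mpr h0)) h2

lemma disc_ring {R : Type} [CommRing R] (w : Valuation R Γ) (hw : ∀ r, w r ≤ 1)
    (c : ℕ → ℤ) (n : ℕ) (hc : Perfect c n) (hn : w (n : R) ≠ 0) {p : ℕ} (hp : p.Prime)
    (hvp : w (p : R) < 1) (hp0 : w (p : R) ≠ 0) (η ζ : R) (hη : η ^ n = 1) (hζ : ζ ^ p = 1) :
    w (F c n (η * ζ) - F c n η) < w (F c n η) := by
  have hn0 : n ≠ 0 := by rintro rfl; simp at hn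
  set π : R := ζ - 1 with hπ
  have hπp : w π ^ p ≤ w (p : R) * w π := by
    obtain ⟨r, hr⟩ := exists_add_pow_prime_eq hp π 1
    have h1 : π + 1 = ζ := by rw [hπ]; ring
    rw [h1, hζ, one_pow] at hr
    have h2 : π ^ p = -((p : R) * π * r) := by linear_combination -hr
    rw [← map_pow, h2, Valuation.map_neg, map_mul, map_mul]
    exact mul_le_of_le_one_right zero_le (hw r)
  let Y : R[X] := C η * (1 + C π * X)
  let W : R[X] := Y ^ n - 1
  have hW : ∀ k, w (W.coeff k) < w (n : R) := by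
    intro k
    have h1 : Y ^ n = ((1 + X : R[X]) ^ n).comp (C π * X) := by
      simp only [Y, mul_pow, ← C_pow, hη, C_1, one_mul, pow_comp, add_comp, one_comp, X_comp]
    simp only [W, h1, coeff_sub, comp_C_mul_X_coeff, coeff_one_add_X_pow, coeff_one]
    rcases eq_or_ne k 0 with rfl | hk
    · simpa using zero_lt_iff.mpr hn
    · rw [if_neg hk, sub_zero]
      exact binom_small w π n k hn hk (pow_lt_v_nat w hp hvp hp0 _ hπp k hk)
  let I : Ideal R[X] := Ideal.span {W}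
  have hY : (Ideal.Quotient.mk I Y) ^ n = 1 := by
    rw [← map_pow, ← map_one (Ideal.Quotient.mk I), Ideal.Quotient.eq]
    exact Ideal.mem_span_singleton_self _
  have hP := hc (R[X] ⧸ I) (Ideal.Quotient.mk I Y) (Ideal.Quotient.mk I (Y ^ (n - 1))) hY (by
    rw [map_pow, ← pow_succ', Nat.sub_add_cancel (Nat.pos_of_ne_zero hn0), hY])
  rw [← map_F, ← map_F, ← map_mul, ← map_natCast (Ideal.Quotient.mk I), Ideal.Quotient.eq,
    Ideal.mem_span_singleton'] at hP
  obtain ⟨Q, hQ⟩ := hP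
  have hG := gauss w (F c n Y) (F c n (Y ^ (n - 1))) (n : R) hn (by
    intro k
    rw [C_eq_natCast, ← hQ, coeff_mul]
    refine w.map_sum_lt hn fun x _ => ?_
    rw [map_mul]
    exact lt_of_le_of_lt (mul_le_of_le_one_left zero_le (hw _)) (hW _))
  have e1 : (F c n Y).eval 1 = F c n (η * ζ) := by
    have := map_F (evalRingHom (1 : R)) c n Y
    simp only [coe_evalRingHom] at this
    rw [this]
    congr 1
    simp [Y, hπ]
  have e0 : (F c n Y).eval 0 = F c n η := by
    have := map_F (evalRingHom (0 : R)) c n Y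
    simp only [coe_evalRingHom] at this
    rw [this]
    congr 1
    simp [Y]
  rwa [e1, e0] at hG

lemma disc {K : Type} [Field K] [CharZero K] (v : Valuation K Γ)
    (c : ℕ → ℤ) (n : ℕ) (hc : Perfect c n) (hn : n ≠ 0) {p : ℕ} (hp : p.Prime)
    (hvp : v (p : K) < 1) (η ζ : K) (hη : η ^ n = 1) (hζ : ζ ^ p = 1) :
    v (F c n (η * ζ) - F c n η) < v (F c n η) := by
  let R := v.integer
  let w : Valuation R Γ := v.comap R.subtype
  have hηR : η ∈ R := (v_root_of_unity v hn hη).le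
  have hζR : ζ ∈ R := (v_root_of_unity v hp.ne_zero hζ).le
  have := disc_ring w (fun r => r.2) c n hc
    (by simp [w, hn]) hp (by simpa [w] using hvp) (by simp [w, hp.ne_zero]) ⟨η, hηR⟩ ⟨ζ, hζR⟩
    (Subtype.ext hη) (Subtype.ext hζ)
  simp only [w, Valuation.comap_apply, map_sub, map_F, map_mul] at this
  exact this

end Vale.Agent.P033
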