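import Vale.Agent.P033.Basic

namespace Vale.Agent.P033

open Finset Polynomial

variable {Γ : Type} [LinearOrderedCommGroupWithZero Γ]

lemma v_nat_le {R : Type} [CommRing R] (w : Valuation R Γ) (n : ℕ) : w (n : R) ≤ 1 := by
  induction n with
  | zero => simp
  | succ n ih =>
    push_cast
    exact w.map_add_le ih (by simp)

lemma v_int_le {R : Type} [CommRing R] (w : Valuation R Γ) (n : ℤ) : w (n : R) ≤ 1 := by
  obtain ⟨m, rfl | rfl⟩ := n.eq_nat_or_neg
  · simpa using v_nat_le w m
  · simpa using v_nat_le w m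

lemma exists_top {R : Type} [CommRing R] (w : Valuation R Γ) (P : R[X])
    (hP : ∃ k, w (P.coeff k) ≠ 0) :
    ∃ i, w (P.coeff i) ≠ 0 ∧ (∀ a, w (P.coeff a) ≤ w (P.coeff i)) ∧
      ∀ a, i < a → w (P.coeff a) < w (P.coeff i) := by
  classical
  obtain ⟨k, hk⟩ := hP
  have hks : k ∈ P.support := by
    rw [mem_support_iff]
    intro h0
    rw [h0] at hk
    exact hk (map_zero w)
  obtain ⟨i0, hi0, hmax⟩ := P.support.exists_max_image (fun a => w (P.coeff a)) ⟨k, hks⟩
  have hall : ∀ a, w (P.coeff a) ≤ w (P.coeff i0) := by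
    intro a
    by_cases ha : a ∈ P.support
    · exact hmax a ha
    · rw [notMem_support_iff.mp ha]; simp
  have hne : w (P.coeff i0) ≠ 0 := by
    intro h0
    have := hall k
    rw [h0] at this
    exact hk (le_antisymm this zero_le)
  let T := P.support.filter (fun a => w (P.coeff a) = w (P.coeff i0))
  have hT : T.Nonempty := ⟨i0, by simp [T, mem_support_iff.mp hi0]⟩
  have hi := T.max'_mem hT
  have hieq : w (P.coeff (T.max' hT)) = w (P.coeff i0) := (mem_filter.mp hi).2
  refine ⟨T.max' hT, by rw [hieq]; exact hne, fun a => by rw [hieq]; exact hall a, ?_⟩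
  intro a ha
  rw [hieq]
  refine lt_of_le_of_ne (hall a) fun heq => ?_
  have hamem : a ∈ T := by
    simp only [T, mem_filter, mem_support_iff]
    refine ⟨fun h0 => ?_, heq⟩
    rw [h0] at heq
    exact hne (by rw [← heq]; simp)
  exact absurd (T.le_max' a hamem) (not_le.mpr ha)

/-- Gauss lemma: a factor of a constant-dominated polynomial is constant-dominated. -/
lemma gauss {R : Type} [CommRing R] (w : Valuation R Γ) (H G : R[X]) (c : R) (hc : w c ≠ 0)
    (h : ∀ k, w ((H * G - C c).coeff k) < w c) :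
    w (H.eval 1 - H.eval 0) < w (H.eval 0) := by
  classical
  have h0 : w ((H * G).coeff 0) = w c := by
    have := h 0
    rw [coeff_sub, coeff_C_zero] at this
    exact w.map_eq_of_sub_lt this
  have h0' : w (H.coeff 0) * w (G.coeff 0) = w c := by
    rw [← h0, mul_coeff_zero, map_mul]
  have hH0 : w (H.coeff 0) ≠ 0 := fun h1 => hc (by rw [← h0', h1, zero_mul])
  have hG0 : w (G.coeff 0) ≠ 0 := fun h1 => hc (by rw [← h0', h1, mul_zero])
  obtain ⟨i, hi0, hi1, hi2⟩ := exists_top w H ⟨0, hH0⟩
  obtain ⟨j, hj0, hj1, hj2⟩ := exists_top w G ⟨0, hG0⟩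
  have hij : w ((H * G).coeff (i + j)) = w (H.coeff i * G.coeff j) := by
    rw [coeff_mul]
    refine w.map_sum_eq_of_lt (j := (i, j)) (f := fun x : ℕ × ℕ => H.coeff x.1 * G.coeff x.2)
      (by simp) ?_
    intro x hx
    simp only [mem_sdiff, HasAntidiagonal.mem_antidiagonal, mem_singleton] at hx
    obtain ⟨hx1, hx2⟩ := hx
    simp only [map_mul]
    by_cases hxi : i < x.1
    · calc w (H.coeff x.1) * w (G.coeff x.2) ≤ w (H.coeff x.1) * w (G.coeff j) :=
            mul_le_mul_right (hj1 _) _
        _ < _ := mul_lt_mul_of_pos_right (hi2 _ hxi) (zero_lt_iff.mpr hj0)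
    · have hxj : j < x.2 := by
        by_contra hcon
        apply hx2
        ext <;> simp <;> omega
      calc w (H.coeff x.1) * w (G.coeff x.2) ≤ w (H.coeff i) * w (G.coeff x.2) :=
            mul_le_mul_left (hi1 _) _
        _ < _ := mul_lt_mul_of_pos_left (hj2 _ hxj) (zero_lt_iff.mpr hi0)
  have hle : w c ≤ w (H.coeff i * G.coeff j) := by
    rw [← h0', map_mul]
    exact mul_le_mul' (hi1 0) (hj1 0)
  have hi : i = 0 := by
    by_contra hne
    have h1 := h (i + j)
    rw [coeff_sub, coeff_C, if_neg (by omega), sub_zero, hij] at h1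
    exact absurd hle (not_le.mpr h1)
  subst hi
  rw [← coeff_zero_eq_eval_zero, eval_eq_sum_range, Finset.sum_range_succ']
  simp only [one_pow, mul_one, add_sub_cancel_right]
  exact w.map_sum_lt hi0 fun a _ => hi2 _ (by omega)

end Vale.Agent.P033
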