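import Vale.Agent.P033.Odd

namespace Vale.Agent.P033

open Finset Polynomial

variable {Γ : Type} [LinearOrderedCommGroupWithZero Γ] {K : Type} [Field K]

lemma even_of_v_lt (v : Valuation K Γ) (h2 : v (2 : K) < 1) {r : ℤ} (hr : v (r : K) < 1) :
    (2 : ℤ) ∣ r := by
  rcases Int.even_or_odd' r with ⟨k, rfl | rfl⟩
  · exact dvd_mul_right _ _
  · exfalso
    have h1 : v ((2 : K) * k) < 1 := by
      rw [map_mul]
      exact lt_of_le_of_lt (mul_le_of_le_one_right zero_le (v_int_le v k)) h2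
    have h3 := v.map_one_add_of_lt h1
    push_cast at hr
    rw [add_comm, h3] at hr
    exact lt_irrefl _ hr

lemma lemA_poly (v : Valuation K Γ) (h2 : v (2 : K) < 1) (y : K) (e : ℕ) (hπ1 : v (y - 1) < 1)
    (hπ0 : v (y - 1) ≠ 0) (hπ : v (2 : K) ≤ v (y - 1) ^ e) :
    ∀ k ≤ e, ∀ f : ℤ[X], f.degree < k → v (aeval y f) ≤ v (y - 1) ^ k → C (2 : ℤ) ∣ f := by
  have hy : v y = 1 := cong_val v hπ1
  have hint : ∀ q : ℤ[X], v (aeval y q) ≤ 1 := by
    intro q
    rw [aeval_eq_sum_range]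
    refine v.map_sum_le fun i _ => ?_
    rw [zsmul_eq_mul, map_mul, map_pow, hy, one_pow, mul_one]
    exact v_int_le v _
  intro k
  induction k with
  | zero =>
    intro _ f hf _
    have : f = 0 := by
      by_contra h0
      rw [degree_eq_natDegree h0] at hf
      simp at hf
    simp [this]
  | succ k ih =>
    intro hk f hf hv
    obtain ⟨q, hq⟩ := X_sub_C_dvd_sub_C_eval (a := (1 : ℤ)) (p := f)
    have hf' : f = (X - C 1) * q + C (f.eval 1) := by rw [← hq]; ring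
    have hev : aeval y f = (y - 1) * aeval y q + (f.eval 1 : ℤ) := by
      conv_lhs => rw [hf']
      simp
    have hr : v ((f.eval 1 : ℤ) : K) < 1 := by
      have : ((f.eval 1 : ℤ) : K) = aeval y f - (y - 1) * aeval y q := by rw [hev]; ring
      rw [this]
      refine v.map_sub_lt (hv.trans_lt (pow_lt_one₀ zero_le hπ1 (by omega))) ?_
      rw [map_mul]
      exact lt_of_le_of_lt (mul_le_of_le_one_right zero_le (hint q)) hπ1
    obtain ⟨r, hr2⟩ := even_of_v_lt v h2 hr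
    have hr3 : v ((f.eval 1 : ℤ) : K) ≤ v (y - 1) ^ (k + 1) := by
      rw [hr2]
      push_cast
      rw [map_mul]
      exact (mul_le_of_le_one_right zero_le (v_int_le v r)).trans
        (hπ.trans (pow_le_pow_right_of_le_one' hπ1.le hk))
    have hq1 : v (aeval y q) ≤ v (y - 1) ^ k := by
      have : (y - 1) * aeval y q = aeval y f - ((f.eval 1 : ℤ) : K) := by rw [hev]; ring
      have h3 : v ((y - 1) * aeval y q) ≤ v (y - 1) ^ (k + 1) := by
        rw [this]; exact v.map_sub_le hv hr3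
      rw [map_mul, pow_succ'] at h3
      exact le_of_mul_le_mul_left h3 (zero_lt_iff.mpr hπ0)
    have hqd : q.degree < k := by
      rcases eq_or_ne q 0 with rfl | hq0
      · simp
      have h3 : ((X - C 1) * q).degree < ((k + 1 : ℕ) : WithBot ℕ) := by
        rw [← hq]
        refine (degree_sub_le _ _).trans_lt (max_lt hf (degree_C_le.trans_lt ?_))
        exact_mod_cast Nat.succ_pos k
      rw [degree_mul, degree_X_sub_C, degree_eq_natDegree hq0] at h3
      rw [degree_eq_natDegree hq0]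
      have h4 : 1 + q.natDegree < k + 1 := by exact_mod_cast h3
      exact_mod_cast (by omega : q.natDegree < k)
    rw [hf']
    refine dvd_add (Dvd.dvd.mul_left (ih (by omega) q hqd hq1) _) ?_
    rw [hr2, C_mul]
    exact dvd_mul_right _ _

lemma lemA [CharZero K] (v : Valuation K Γ) (h2 : v (2 : K) < 1) (y : K) (s : ℕ)
    (hy : y ^ (2 ^ s) = -1) (f : ℕ → ℤ) (hv : v (F f (2 ^ s) y) ≤ v (2 : K)) :
    ∀ j < 2 ^ s, (2 : ℤ) ∣ f j := by
  have hy2 : y ^ (2 ^ (s + 1)) = 1 := by rw [pow_succ, pow_mul, hy]; norm_num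
  have hπ1 : v (y - 1) < 1 := cong_of_pow_prime v Nat.prime_two (by simpa using h2) _ hy2
  have hπ0 : v (y - 1) ≠ 0 := by
    rw [v.ne_zero_iff, sub_ne_zero]
    rintro rfl
    norm_num at hy
  have hπ : v (2 : K) ≤ v (y - 1) ^ (2 ^ s) := by
    have hyR : y ∈ v.integer := (cong_val v hπ1).le
    obtain ⟨r, hr⟩ := exists_add_pow_prime_pow_eq Nat.prime_two ((⟨y, hyR⟩ : v.integer) - 1) 1 s
    have hr' := congrArg v.integer.subtype hr
    simp only [sub_add_cancel, map_pow, Subring.subtype_apply, one_pow, mul_one, map_add, map_sub,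
      map_one, map_mul, map_natCast, hy] at hr'
    have h3 : (y - 1) ^ (2 ^ s) = -(2 * (1 + (y - 1) * r)) := by
      push_cast at hr'
      linear_combination -hr'
    have h4 : v ((y - 1) * r) < 1 := by
      rw [map_mul]
      exact lt_of_le_of_lt (mul_le_of_le_one_right zero_le r.2) hπ1
    rw [← map_pow, h3, Valuation.map_neg, map_mul, v.map_one_add_of_lt h4, mul_one]
  let p : ℤ[X] := ∑ j ∈ range (2 ^ s), monomial j (f j)
  have hp : aeval y p = F f (2 ^ s) y := by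
    simp [p, F, map_sum, aeval_monomial]
  have hd : p.degree < (2 ^ s : ℕ) := by
    refine (degree_sum_le _ _).trans_lt ?_
    rw [Finset.sup_lt_iff (WithBot.bot_lt_coe _)]
    intro j hj
    exact (degree_monomial_le _ _).trans_lt (by exact_mod_cast mem_range.mp hj)
  have := lemA_poly v h2 y (2 ^ s) hπ1 hπ0 hπ _ le_rfl p hd (by rw [hp]; exact hv.trans hπ)
  intro j hj
  have h5 := (C_dvd_iff_dvd_coeff _ _).mp this j
  simpa [p, coeff_monomial, hj] using h5

lemma F_congr {A : Type} [CommRing A] {f g : ℕ → ℤ} {n : ℕ} (r : ℤ)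
    (h : ∀ j < n, f j = r * g j) (y : A) : F f n y = r * F g n y := by
  simp only [F, mul_sum]
  refine sum_congr rfl fun j hj => ?_
  rw [h j (mem_range.mp hj)]
  push_cast
  ring

lemma lemA4 [CharZero K] (v : Valuation K Γ) (h2 : v (2 : K) < 1) (y : K) (s : ℕ)
    (hy : y ^ (2 ^ s) = -1) (f : ℕ → ℤ) (hv : v (F f (2 ^ s) y) ≤ v (2 : K) ^ 2) :
    ∀ j < 2 ^ s, (4 : ℤ) ∣ f j := by
  have h1 := lemA v h2 y s hy f (hv.trans (by
    rw [pow_two]; exact mul_le_of_le_one_right zero_le h2.le))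
  have h3 : ∀ j < 2 ^ s, f j = 2 * (f j / 2) := fun j hj => (Int.mul_ediv_cancel' (h1 j hj)).symm
  rw [F_congr 2 h3, map_mul, pow_two] at hv
  have h20 : v (2 : K) ≠ 0 := by simp
  have h4 := lemA v h2 y s hy _ (le_of_mul_le_mul_left (by exact_mod_cast hv) (zero_lt_iff.mpr h20))
  intro j hj
  obtain ⟨t, ht⟩ := h4 j hj
  exact ⟨t, by rw [h3 j hj, ht]; ring⟩

lemma F_halve {A : Type} [CommRing A] (a : ℕ → ℤ) (e : ℕ) (y : A) (ε : ℤ) (hy : y ^ e = ε) :
    F a (e + e) y = F (fun j => a j + ε * a (e + j)) e y := by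
  simp only [F, sum_range_add, ← sum_add_distrib]
  refine sum_congr rfl fun j _ => ?_
  rw [pow_add, hy]
  push_cast
  ring

lemma parseval [CharZero K] (a : ℕ → ℤ) (M : ℕ) (hM : M ≠ 0) (ζ : K) (hζ : IsPrimitiveRoot ζ M)
    (D : ℤ) (h : ∀ y : K, y ^ M = 1 → F a M y * F a M y⁻¹ = D) :
    ∑ j ∈ range M, a j ^ 2 = D := by
  have hζ0 : ζ ≠ 0 := hζ.ne_zero hM
  have h1 : ∑ t ∈ range M, F a M (ζ ^ t) * F a M (ζ ^ t)⁻¹ = M * D := by
    rw [sum_congr rfl fun t _ => h _ (by rw [← pow_mul, mul_comm, pow_mul, hζ.pow_eq_one, one_pow])]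
    simp
  have h2 : ∀ i ∈ range M, ∀ j ∈ range M,
      ∑ t ∈ range M, (a i : K) * (ζ ^ t) ^ i * ((a j : K) * (ζ ^ t)⁻¹ ^ j)
        = if i = j then (M : K) * (a i : K) ^ 2 else 0 := by
    intro i hi j hj
    have e1 : ∀ t, (a i : K) * (ζ ^ t) ^ i * ((a j : K) * (ζ ^ t)⁻¹ ^ j)
        = (a i : K) * a j * (ζ ^ i / ζ ^ j) ^ t := by
      intro t
      rw [div_pow, inv_pow, ← pow_mul, ← pow_mul, ← pow_mul, ← pow_mul, mul_comm i t, mul_comm j t]
      ring
    simp_rw [e1, ← mul_sum]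
    split_ifs with hij
    · subst hij
      rw [div_self (pow_ne_zero _ hζ0)]
      simp
      ring
    · rw [geom_zero, mul_zero]
      · rw [div_pow, ← pow_mul, ← pow_mul, mul_comm i, mul_comm j, pow_mul, pow_mul,
          hζ.pow_eq_one, one_pow, one_pow, div_one]
      · intro h3
        rw [div_eq_one_iff_eq (pow_ne_zero _ hζ0)] at h3
        exact hij (hζ.pow_inj (mem_range.mp hi) (mem_range.mp hj) h3)
  have h3 : ∑ t ∈ range M, F a M (ζ ^ t) * F a M (ζ ^ t)⁻¹
      = M * ((∑ j ∈ range M, a j ^ 2 : ℤ) : K) := by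
    simp only [F, sum_mul_sum]
    rw [sum_comm]
    rw [sum_congr rfl fun i hi => by
      rw [sum_comm, sum_congr rfl fun j hj => h2 i hi j hj, sum_ite_eq, if_pos hi]]
    push_cast
    rw [mul_sum]
  rw [h1] at h3
  have hM' : (M : K) ≠ 0 := by exact_mod_cast hM
  exact_mod_cast (mul_left_cancel₀ hM' h3).symm

theorem two_ind [CharZero K] (u : ℤ) (hu : Odd u) (w : ℕ) :
    ∀ (s : ℕ) (ζ : K) (a : ℕ → ℤ), IsPrimitiveRoot ζ (2 ^ s) → w + 3 ≤ s →
      (∀ j < 2 ^ s, Odd (a j)) →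
      (∀ y : K, y ^ (2 ^ s) = 1 → F a (2 ^ s) y * F a (2 ^ s) y⁻¹ = ((4 ^ (w + 1) * u ^ 2 : ℤ) : K))
      → False := by
  induction w with
  | zero =>
    intro s ζ a hζ hs ha hE
    have h1 := parseval a _ (by positivity) ζ hζ _ hE
    have h2 := congrArg (Int.cast : ℤ → ZMod 8) h1
    have h8 : ∀ b : ℤ, Odd b → ((b : ZMod 8)) ^ 2 = 1 := by
      rintro b ⟨k, rfl⟩
      push_cast
      generalize (k : ZMod 8) = t
      revert t
      decide
    push_cast at h2
    rw [sum_congr rfl fun j hj => h8 _ (ha j (mem_range.mp hj)), h8 u hu] at h2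
    obtain ⟨r, rfl⟩ : ∃ r, s = 3 + r := ⟨s - 3, by omega⟩
    simp only [sum_const, card_range, nsmul_eq_mul, mul_one, pow_add] at h2
    push_cast at h2
    have h9 : (8 : ZMod 8) = 0 := by decide
    rw [h9, zero_mul] at h2
    revert h2
    decide
  | succ w ih =>
    intro s ζ a hζ hs ha hE
    obtain ⟨s, rfl⟩ : ∃ r, s = r + 1 := ⟨s - 1, by omega⟩
    have hM : 2 ^ (s + 1) = 2 ^ s + 2 ^ s := by ring
    obtain ⟨V, hV⟩ := exists_val K Nat.prime_two
    have hV2 : V.valuation (2 : K) < 1 := by simpa using hV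
    have hζe : ζ ^ (2 ^ s) = -1 := by
      have : IsPrimitiveRoot (ζ ^ (2 ^ s)) 2 := hζ.pow (by positivity) (by ring)
      exact this.eq_neg_one_of_two_right
    have hζe' : ζ⁻¹ ^ (2 ^ s) = -1 := by rw [inv_pow, hζe]; norm_num
    have h4 : ∀ j < 2 ^ s, (4 : ℤ) ∣ a j + (-1) * a (2 ^ s + j) := by
      have h1 := hE ζ hζ.pow_eq_one
      rw [hM, F_halve a _ ζ (-1) (by simpa using hζe),
        F_halve a _ ζ⁻¹ (-1) (by simpa using hζe')] at h1
      by_contra hcon
      have g1 := fun h => hcon (lemA4 V.valuation hV2 ζ s hζe _ h)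
      have g2 := fun h => hcon (lemA4 V.valuation hV2 ζ⁻¹ s hζe' _ h)
      have g3 := mul_lt_mul'' (not_le.mp g1) (not_le.mp g2) zero_le zero_le
      rw [← map_mul, h1] at g3
      have e1 : ((4 ^ (w + 1 + 1) * u ^ 2 : ℤ) : K) = 2 ^ 2 * 2 ^ 2 * ((4 ^ w * u ^ 2 : ℤ) : K) := by
        push_cast; ring
      rw [e1, map_mul, map_mul, map_pow] at g3
      exact absurd (mul_le_of_le_one_right zero_le (v_int_le _ _)) (not_le.mpr g3)
    refine ih s (ζ ^ 2) (fun j => (a j + 1 * a (2 ^ s + j)) / 2)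
      (hζ.pow (by positivity) (by ring)) (by omega) ?_ ?_
    · intro j hj
      obtain ⟨t, ht⟩ := h4 j hj
      obtain ⟨k, hk⟩ := ha j (by omega)
      exact ⟨k - t, by omega⟩
    · intro y hy
      have h1 := hE y (by rw [hM, pow_add, hy, one_mul])
      have h2 : ∀ j < 2 ^ s, a j + 1 * a (2 ^ s + j) = 2 * ((a j + 1 * a (2 ^ s + j)) / 2) := by
        intro j hj
        obtain ⟨t, ht⟩ := h4 j hj
        omega
      rw [hM, F_halve a _ y 1 (by simpa using hy), F_halve a _ y⁻¹ 1 (by simp [hy]),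
        F_congr 2 h2, F_congr 2 h2] at h1
      have h4' : (4 : K) ≠ 0 := by norm_num
      refine mul_left_cancel₀ h4' ?_
      push_cast at h1 ⊢
      linear_combination h1

lemma F_project {A : Type} [CommRing A] (c : ℕ → ℤ) (N t : ℕ) (y : A) (hy : y ^ N = 1) :
    F c (N * t) y = F (fun j => ∑ i ∈ range t, c (N * i + j)) N y := by
  induction t with
  | zero => simp [F]
  | succ t ih =>
    simp only [F] at ih ⊢
    rw [mul_add, mul_one, sum_range_add, ih, ← sum_add_distrib]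
    refine sum_congr rfl fun j _ => ?_
    rw [sum_range_succ, pow_add, pow_mul, hy]
    push_cast
    ring

theorem two_case [CharZero K] (c : ℕ → ℤ) (hodd : ∀ k, Odd (c k)) (u b : ℕ) (hu : Odd u)
    (hb : 2 ≤ b) (hc : Perfect c (2 ^ (2 * b) * u ^ 2)) (ζ : K)
    (hζ : IsPrimitiveRoot ζ (2 ^ (2 * b) * u ^ 2)) : False := by
  obtain ⟨w, rfl⟩ : ∃ w, b = w + 1 := ⟨b - 1, by omega⟩
  have hu0 : 0 < u := hu.pos
  refine two_ind (K := K) (u : ℤ) (by exact_mod_cast hu) w (2 * (w + 1)) (ζ ^ (u ^ 2))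
    (fun j => ∑ i ∈ range (u ^ 2), c (2 ^ (2 * (w + 1)) * i + j))
    (hζ.pow (by positivity) (by ring)) (by omega) ?_ ?_
  · intro j _
    choose d hd using hodd
    obtain ⟨k, hk⟩ : Odd (u ^ 2) := hu.pow
    refine ⟨∑ i ∈ range (u ^ 2), d (2 ^ (2 * (w + 1)) * i + j) + k, ?_⟩
    simp only [hd, sum_add_distrib, ← mul_sum, sum_const, card_range, nsmul_eq_mul, mul_one]
    rw [hk]
    push_cast
    ring
  · intro y hy
    have hy0 : y ≠ 0 := by rintro rfl; simp at hy
    rw [← F_project c _ _ y hy, ← F_project c _ _ y⁻¹ (by rw [inv_pow, hy, inv_one]),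
      hc K y y⁻¹ (by rw [pow_mul, hy, one_pow]) (mul_inv_cancel₀ hy0)]
    push_cast
    rw [pow_mul]
    norm_num

end Vale.Agent.P033
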