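import Vale.Agent.P033.OddMain
import Vale.Agent.P033.Two

namespace Vale.Agent.P033

open Finset

theorem order_odd {K : Type} [Field K] [CharZero K] (c : ℕ → ℤ) (hodd : ∀ k, Odd (c k)) (n : ℕ)
    (hn : Odd n) (hc : Perfect c n) (ζ : K) (hζ : IsPrimitiveRoot ζ n) : n = 1 := by
  by_contra h1
  have hn0 : n ≠ 0 := hn.pos.ne'
  choose d hd using hodd
  have hζ1 : ζ ≠ 1 := hζ.ne_one (by have := hn.pos; omega)
  have hζ0 : ζ ≠ 0 := hζ.ne_zero hn0
  have hinv : ζ⁻¹ ^ n = 1 := by rw [inv_pow, hζ.pow_eq_one, inv_one]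
  have h2 := hc K ζ ζ⁻¹ hζ.pow_eq_one (mul_inv_cancel₀ hζ0)
  rw [F_split c d hd, F_split c d hd, geom_zero hζ.pow_eq_one hζ1,
    geom_zero hinv (inv_ne_one.mpr hζ1), add_zero, add_zero] at h2
  obtain ⟨V, hV⟩ := exists_val K Nat.prime_two
  have hV2 : V.valuation (2 : K) < 1 := by simpa using hV
  have hVn : V.valuation (n : K) = 1 := v_coprime _ hV (Nat.coprime_two_left.mpr hn)
  have h3 := v_F_le V.valuation d n (v_root_of_unity _ hn0 hζ.pow_eq_one).le
  have h4 := v_F_le V.valuation d n (v_root_of_unity _ hn0 hinv).le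
  rw [← h2, map_mul, map_mul, map_mul] at hVn
  have h5 : V.valuation (2 : K) * V.valuation (F d n ζ) *
      (V.valuation (2 : K) * V.valuation (F d n ζ⁻¹)) ≤ V.valuation (2 : K) * 1 * (1 * 1) := by
    gcongr
  rw [hVn] at h5
  simp only [mul_one] at h5
  exact absurd h5 (not_le.mpr hV2)

theorem exists_field_aux (n : ℕ) (hn : n ≠ 0) (L : Type) [Field L] [NumberField L] :
    ∃ (K : Type) (_ : Field K) (_ : NumberField K) (ζ : K), IsPrimitiveRoot ζ n := by
  have : NeZero n := ⟨hn⟩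
  exact ⟨CyclotomicField n L, inferInstance, inferInstance, _,
    IsCyclotomicExtension.zeta_spec n L (CyclotomicField n L)⟩

theorem exists_field (n : ℕ) (hn : n ≠ 0) :
    ∃ (K : Type) (_ : Field K) (_ : NumberField K) (ζ : K), IsPrimitiveRoot ζ n :=
  exists_field_aux n hn ℚ

theorem order_of_perfect (c : ℕ → ℤ) (hodd : ∀ k, Odd (c k)) (n : ℕ) (hn : n ≠ 0)
    (hc : Perfect c n) : n = 1 ∨ n = 4 := by
  obtain ⟨K, _, _, ζ, hζ⟩ := exists_field n hn
  have h1 := hc ℤ 1 1 (one_pow _) (one_mul _)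
  set m := (F c n (1 : ℤ)).natAbs with hm
  have hnm : n = m ^ 2 := by
    have : ((m ^ 2 : ℕ) : ℤ) = n := by
      push_cast
      rw [hm, Int.natCast_natAbs, sq_abs, pow_two]
      exact_mod_cast h1
    exact_mod_cast this.symm
  have hm0 : m ≠ 0 := by rintro h0; rw [h0] at hnm; exact hn hnm
  obtain ⟨b, u, hu, hbu⟩ := Nat.exists_eq_two_pow_mul_odd hm0
  have hn2 : n = 2 ^ (2 * b) * u ^ 2 := by rw [hnm, hbu]; ring
  rcases b with _ | _ | b
  · left
    refine order_odd c hodd n ?_ hc ζ hζ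
    rw [hn2]; simpa using hu.pow
  · right
    by_contra h4
    have hn3 : n = 4 * u ^ 2 := by rw [hn2]; norm_num
    refine odd_case c hodd u hu ?_ (hn3 ▸ hc) ζ (hn3 ▸ hζ)
    rintro rfl
    exact h4 (by rw [hn3]; norm_num)
  · exact (two_case c hodd u (b + 1 + 1) hu (by omega) (hn2 ▸ hc) ζ (hn2 ▸ hζ)).elim

end Vale.Agent.P033
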