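import Vale.Agent.P033.Val

namespace Vale.Agent.P033

open Finset Polynomial

variable {Γ : Type} [LinearOrderedCommGroupWithZero Γ] {K : Type} [Field K]

lemma alt_prod {L : Type} [Field L] (P : Finset ℕ) (g : Finset ℕ → L) {p : ℕ} (hp : p ∈ P) :
    ∏ S ∈ P.powerset, g S ^ ((-1 : ℤ) ^ S.card)
      = ∏ S ∈ (P.erase p).powerset, (g S / g (insert p S)) ^ ((-1 : ℤ) ^ S.card) := by
  conv_lhs => rw [← insert_erase hp]
  rw [prod_powerset_insert (notMem_erase p P), ← prod_mul_distrib]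
  refine prod_congr rfl fun S hS => ?_
  have hpS : p ∉ S := fun h => notMem_erase p P (mem_powerset.mp hS h)
  rw [card_insert_of_notMem hpS, pow_succ, mul_neg_one, zpow_neg, div_zpow, div_eq_mul_inv]

lemma F_split (c d : ℕ → ℤ) (hcd : ∀ k, c k = 2 * d k + 1) (n : ℕ) (y : K) :
    F c n y = 2 * F d n y + ∑ k ∈ range n, y ^ k := by
  simp only [F, mul_sum, ← sum_add_distrib]
  refine sum_congr rfl fun k _ => ?_
  rw [hcd]
  push_cast
  ring

lemma geom_zero {y : K} {n : ℕ} (hy : y ^ n = 1) (h1 : y ≠ 1) : ∑ k ∈ range n, y ^ k = 0 := by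
  have := mul_geom_sum y n
  rw [hy, sub_self] at this
  exact (mul_eq_zero.mp this).resolve_left (sub_ne_zero.mpr h1)

lemma v_F_le (v : Valuation K Γ) (d : ℕ → ℤ) (n : ℕ) {y : K} (hy : v y ≤ 1) :
    v (F d n y) ≤ 1 := by
  refine v.map_sum_le fun k _ => ?_
  rw [map_mul, map_pow]
  exact mul_le_one' (v_int_le v _) (pow_le_one' hy _)

lemma v_F_sub (v : Valuation K Γ) (d : ℕ → ℤ) (n : ℕ) {y ψ : K} (hy : v y ≤ 1)
    (hψ : v (ψ - 1) < 1) : v (F d n (ψ * y) - F d n y) < 1 := by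
  simp only [F, ← sum_sub_distrib]
  refine v.map_sum_lt one_ne_zero fun k _ => ?_
  have : (d k : K) * (ψ * y) ^ k - (d k : K) * y ^ k = (d k : K) * y ^ k * (ψ ^ k - 1) := by ring
  rw [this, map_mul, map_mul, map_pow]
  exact lt_of_le_of_lt
    (mul_le_of_le_one_left zero_le (mul_le_one' (v_int_le v _) (pow_le_one' hy _)))
    (cong_pow v hψ k)

/-- Functions given on fourth roots of unity by an integral polynomial. -/
def Good (v : Valuation K Γ) (g : K → K) : Prop :=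
  ∃ P : v.integer[X], ∀ ψ : K, ψ ^ 4 = 1 → g ψ = eval₂RingHom v.integer.subtype ψ P

lemma Good.const (v : Valuation K Γ) {a : K} (ha : v a ≤ 1) : Good v (fun _ => a) :=
  ⟨C ⟨a, ha⟩, fun ψ _ => by simp⟩

lemma Good.mul {v : Valuation K Γ} {g h : K → K} (hg : Good v g) (hh : Good v h) :
    Good v (fun ψ => g ψ * h ψ) := by
  obtain ⟨P, hP⟩ := hg
  obtain ⟨Q, hQ⟩ := hh
  exact ⟨P * Q, fun ψ hψ => by rw [map_mul, ← hP ψ hψ, ← hQ ψ hψ]⟩

lemma Good.congr {v : Valuation K Γ} {g h : K → K} (hg : Good v g)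
    (hh : ∀ ψ : K, ψ ^ 4 = 1 → h ψ = g ψ) : Good v h := by
  obtain ⟨P, hP⟩ := hg
  exact ⟨P, fun ψ hψ => by rw [hh ψ hψ, hP ψ hψ]⟩

lemma Good.prod {v : Valuation K Γ} {ι : Type} (s : Finset ι) (g : ι → K → K)
    (h : ∀ i ∈ s, Good v (g i)) : Good v (fun ψ => ∏ i ∈ s, g i ψ) := by
  classical
  induction s using Finset.induction_on with
  | empty => simpa using Good.const v (a := 1) (by simp)
  | insert a s ha ih =>
    simp only [prod_insert ha]
    exact (h a (mem_insert_self _ _)).mul (ih fun i hi => h i (mem_insert_of_mem hi))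

lemma Good.F (v : Valuation K Γ) (d : ℕ → ℤ) (n j : ℕ) {a : K} (ha : v a ≤ 1) :
    Good v (fun ψ => F d n (ψ ^ j * a)) :=
  ⟨P033.F d n (X ^ j * C ⟨a, ha⟩), fun ψ _ => by
    rw [map_F, map_mul, map_pow]; simp⟩

lemma Good.sum_le {v : Valuation K Γ} {g : K → K} (hg : Good v g) {ι : K} (hι : ι ^ 2 = -1) :
    v (g 1 + g (-1) + g ι + g (-ι)) ≤ v 4 := by
  obtain ⟨P, hP⟩ := hg
  have h4 : ι ^ 4 = 1 := by
    calc ι ^ 4 = (ι ^ 2) ^ 2 := by ring
      _ = 1 := by rw [hι]; norm_num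
  rw [hP 1 (by norm_num), hP (-1) (by norm_num), hP ι h4, hP (-ι) (by rw [← h4]; ring)]
  clear hP
  induction P using Polynomial.induction_on' with
  | add p q hp hq =>
    simp only [map_add]
    refine le_trans (le_of_eq ?_) (v.map_add_le hp hq)
    congr 1
    ring
  | monomial k a =>
    simp only [coe_eval₂RingHom, eval₂_monomial, Subring.subtype_apply]
    have ha : v (a : K) ≤ 1 := a.2
    have : ∃ e : K, (e = 0 ∨ e = 4) ∧ (1 : K) ^ k + (-1) ^ k + ι ^ k + (-ι) ^ k = e := by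
      rcases Nat.even_or_odd' k with ⟨m, rfl | rfl⟩
      · have h1 : ι ^ (2 * m) = (-1) ^ m := by rw [pow_mul, hι]
        have h2 : (-ι) ^ (2 * m) = (-1) ^ m := by rw [pow_mul, neg_sq, hι]
        have h3 : (-1 : K) ^ (2 * m) = 1 := by rw [pow_mul]; simp
        rw [h1, h2, h3, one_pow]
        rcases neg_one_pow_eq_or K m with h | h
        · exact ⟨4, Or.inr rfl, by rw [h]; norm_num⟩
        · exact ⟨0, Or.inl rfl, by rw [h]; norm_num⟩
      · refine ⟨0, Or.inl rfl, ?_⟩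
        have ho : Odd (2 * m + 1) := odd_two_mul_add_one m
        rw [ho.neg_pow, ho.neg_pow]
        ring
    obtain ⟨e, he, hs⟩ := this
    have h5 : (a : K) * 1 ^ k + a * (-1) ^ k + a * ι ^ k + a * (-ι) ^ k = a * e := by
      rw [← hs]; ring
    rw [h5, map_mul]
    rcases he with rfl | rfl
    · simp
    · exact mul_le_of_le_one_left zero_le ha

lemma eta_ne (P : Finset ℕ) (z : ℕ → K) (hP : ∀ p ∈ P, p.Prime ∧ p ≠ 2 ∧ IsPrimitiveRoot (z p) p)
    {S : Finset ℕ} (hS : S ⊆ P) (hne : S.Nonempty) {ψ : K} (hψ : ψ ^ 4 = 1) :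
    ψ * ∏ q ∈ S, z q ≠ 1 := by
  intro h
  obtain ⟨p, hp⟩ := hne
  obtain ⟨hpp, hp2, hpz⟩ := hP p (hS hp)
  set m := ∏ q ∈ S.erase p, q with hm
  have h1 : (ψ * ∏ q ∈ S, z q) ^ (4 * m) = z p ^ (4 * m) := by
    rw [mul_pow, pow_mul, hψ, one_pow, one_mul, ← mul_prod_erase S z hp, mul_pow, ← prod_pow]
    rw [prod_eq_one, mul_one]
    intro q hq
    have hqm : q ∣ 4 * m := Dvd.dvd.mul_left (dvd_prod_of_mem (fun q : ℕ => q) hq) 4
    exact ((hP q (hS (mem_of_mem_erase hq))).2.2.pow_eq_one_iff_dvd _).mpr hqm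
  rw [h, one_pow] at h1
  have h2 : p ∣ 4 * m := (hpz.pow_eq_one_iff_dvd _).mp h1.symm
  rcases (Nat.Prime.dvd_mul hpp).mp h2 with h3 | h3
  · have : p ∣ 2 ^ 2 := h3
    exact hp2 ((Nat.prime_dvd_prime_iff_eq hpp Nat.prime_two).mp (hpp.dvd_of_dvd_pow this))
  · obtain ⟨q, hq, hpq⟩ := (Prime.dvd_finsetProd_iff hpp.prime _).mp h3
    have := (Nat.prime_dvd_prime_iff_eq hpp (hP q (hS (mem_of_mem_erase hq))).1).mp hpq
    exact (ne_of_mem_erase hq) this.symm

lemma v_eq_one_of_primes (v : Valuation K Γ) {u : ℕ} (hu : u ≠ 0)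
    (h : ∀ p ∈ u.primeFactors, ¬ v (p : K) < 1) : v (u : K) = 1 := by
  conv_lhs => rw [Nat.prod_primeFactors_pow_factorization hu]
  push_cast
  rw [map_prod]
  refine prod_eq_one fun p hp => ?_
  rw [map_pow, le_antisymm (v_nat_le v p) (not_lt.mp (h p hp)), one_pow]

end Vale.Agent.P033
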