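import Vale.Agent.P033.Odd

namespace Vale.Agent.P033

open Finset Polynomial

variable {Γ : Type} [LinearOrderedCommGroupWithZero Γ] {K : Type} [Field K]

lemma norm_F {c : ℕ → ℤ} {n : ℕ} (hc : Perfect c n) (hn : n ≠ 0) {y : ℂ} (hy : y ^ n = 1) :
    ‖F c n y‖ ^ 2 = n := by
  have h1 : ‖y‖ = 1 := Complex.norm_eq_one_of_pow_eq_one hy hn
  have h2 : y * (starRingEnd ℂ) y = 1 := by
    rw [Complex.mul_conj, Complex.normSq_eq_norm_sq, h1]; simp
  have h3 := hc ℂ y _ hy h2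
  rw [← map_F, Complex.mul_conj, Complex.normSq_eq_norm_sq] at h3
  exact_mod_cast h3

theorem odd_case [NumberField K] (c : ℕ → ℤ) (hodd : ∀ k, Odd (c k)) (u : ℕ) (hu : Odd u)
    (hu1 : u ≠ 1) (hc : Perfect c (4 * u ^ 2)) (ζ : K) (hζ : IsPrimitiveRoot ζ (4 * u ^ 2)) :
    False := by
  classical
  set n := 4 * u ^ 2 with hn
  have hu0 : u ≠ 0 := hu.pos.ne'
  have hn0 : n ≠ 0 := by positivity
  choose d hd using hodd
  set P := u.primeFactors with hPdef
  have hPne : P.Nonempty := Nat.nonempty_primeFactors.mpr (by have := hu.pos; omega)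
  let z : ℕ → K := fun p => ζ ^ (n / p)
  have hpn : ∀ p ∈ P, p ∣ n := fun p hp =>
    Dvd.dvd.mul_left (Dvd.dvd.pow (Nat.dvd_of_mem_primeFactors hp) two_ne_zero) 4
  have hP : ∀ p ∈ P, p.Prime ∧ p ≠ 2 ∧ IsPrimitiveRoot (z p) p := by
    intro p hp
    refine ⟨Nat.prime_of_mem_primeFactors hp, ?_, ?_⟩
    · rintro rfl
      exact (Nat.not_even_iff_odd.mpr hu) (even_iff_two_dvd.mpr (Nat.dvd_of_mem_primeFactors hp))
    · exact hζ.pow (Nat.pos_of_ne_zero hn0) (Nat.div_mul_cancel (hpn p hp)).symm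
  let η : Finset ℕ → K := fun S => ∏ q ∈ S, z q
  have hηn : ∀ S ⊆ P, η S ^ n = 1 := by
    intro S hS
    simp only [η]
    rw [← prod_pow]
    exact prod_eq_one fun q hq => ((hP q (hS hq)).2.2.pow_eq_one_iff_dvd _).mpr (hpn q (hS hq))
  have hψn : ∀ ψ : K, ψ ^ 4 = 1 → ψ ^ n = 1 := fun ψ hψ => by rw [hn, pow_mul, hψ, one_pow]
  have hψη : ∀ ψ : K, ψ ^ 4 = 1 → ∀ S ⊆ P, (ψ * η S) ^ n = 1 := fun ψ hψ S hS => by
    rw [mul_pow, hψn ψ hψ, hηn S hS, one_mul]
  let x : K → K := fun y => F c n y / 2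
  have hx1 : ∀ y : K, y ^ n = 1 → y ≠ 1 → x y = F d n y := by
    intro y hy h1
    simp only [x]
    rw [F_split c d hd, geom_zero hy h1]
    ring
  have hx2 : x 1 = F d n 1 + 2 * (u : K) ^ 2 := by
    simp only [x]
    rw [F_split c d hd]
    simp only [one_pow, sum_const, card_range, nsmul_eq_mul, mul_one, hn]
    push_cast
    ring
  have hx3 : ∀ y : K, y ^ n = 1 → x y * x y⁻¹ = (u : K) ^ 2 := by
    intro y hy
    have hy0 : y ≠ 0 := by rintro rfl; simp [hn0] at hy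
    have := hc K y y⁻¹ hy (mul_inv_cancel₀ hy0)
    simp only [x]
    rw [div_mul_div_comm, this, hn]
    push_cast
    ring
  have hx0 : ∀ y : K, y ^ n = 1 → x y ≠ 0 := by
    intro y hy h0
    have := hx3 y hy
    rw [h0, zero_mul] at this
    exact hu0 (by exact_mod_cast (pow_eq_zero_iff two_ne_zero).mp this.symm)
  have h2u : ∀ V : ValuationSubring K, V.valuation (2 * (u : K) ^ 2) ≤ V.valuation (2 : K) := by
    intro V
    rw [map_mul, map_pow]
    exact mul_le_of_le_one_right zero_le (pow_le_one' (v_nat_le _ u) _)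
  have hxd : ∀ (V : ValuationSubring K) (y : K), y ^ n = 1 →
      V.valuation (x y - F d n y) ≤ V.valuation (2 : K) := by
    intro V y hy
    rcases eq_or_ne y 1 with rfl | h1
    · rw [hx2, add_sub_cancel_left]; exact h2u V
    · rw [hx1 y hy h1]; simp
  have hx4 : ∀ (V : ValuationSubring K) (y : K), y ^ n = 1 → V.valuation (x y) ≤ 1 := by
    intro V y hy
    have h1 : x y = (x y - F d n y) + F d n y := by ring
    rw [h1]
    refine V.valuation.map_add_le ((hxd V y hy).trans ?_)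
      (v_F_le _ d n (v_root_of_unity _ hn0 hy).le)
    exact_mod_cast v_nat_le V.valuation 2
  have hx5 : ∀ (V : ValuationSubring K) (y : K), y ^ n = 1 → V.valuation (u : K) = 1 →
      V.valuation (x y) = 1 := by
    intro V y hy hv
    have h1 := congrArg V.valuation (hx3 y hy)
    rw [map_mul, map_pow, hv, one_pow] at h1
    have h2 := hx4 V y⁻¹ (by rw [inv_pow, hy, inv_one])
    refine le_antisymm (hx4 V y hy) ?_
    rw [← h1]
    exact mul_le_of_le_one_right zero_le h2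
  have hx6 : ∀ (φ : K →+* ℂ) (y : K), y ^ n = 1 → ‖φ (x y)‖ = u := by
    intro φ y hy
    have h1 := norm_F hc hn0 (y := φ y) (by rw [← map_pow, hy, map_one])
    have h2 : ‖F c n (φ y)‖ = 2 * u := by
      refine (pow_left_inj₀ (norm_nonneg _) (by positivity) two_ne_zero).mp ?_
      rw [h1, hn]; push_cast; ring
    simp only [x, map_div₀, map_F, norm_div, h2, map_ofNat]
    simp
  have hx7 : ∀ (V : ValuationSubring K), V.valuation (2 : K) < 1 → ∀ ψ y : K, ψ ^ 4 = 1 →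
      y ^ n = 1 → V.valuation (x (ψ * y) - x y) < 1 := by
    intro V hV ψ y hψ hy
    have h1 : x (ψ * y) - x y = (x (ψ * y) - F d n (ψ * y)) + (F d n (ψ * y) - F d n y)
      - (x y - F d n y) := by ring
    rw [h1]
    refine V.valuation.map_sub_lt (V.valuation.map_add_lt ?_ ?_) ((hxd V y hy).trans_lt hV)
    · exact (hxd V _ (by rw [mul_pow, hψn ψ hψ, hy, one_mul])).trans_lt hV
    · exact v_F_sub _ d n (v_root_of_unity _ hn0 hy).le
        (cong_of_pow_prime V.valuation Nat.prime_two (by simpa using hV) 2 hψ)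
  let ρ : K → K := fun ψ => ∏ S ∈ P.powerset, x (ψ * η S) ^ ((-1 : ℤ) ^ S.card)
  have hρ1 : ∀ (V : ValuationSubring K) (p : ℕ), p ∈ P → V.valuation (p : K) < 1 →
      ∀ ψ : K, ψ ^ 4 = 1 → V.valuation (ρ ψ - 1) < 1 := by
    intro V p hp hV ψ hψ
    simp only [ρ]
    rw [alt_prod P (fun S => x (ψ * η S)) hp]
    refine cong_prod _ _ _ fun S hS => cong_zpow _ ?_ _
    have hSP : S ⊆ P := (mem_powerset.mp hS).trans (erase_subset _ _)
    have hpS : p ∉ S := fun h => notMem_erase p P (mem_powerset.mp hS h)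
    have h1 : ψ * η (insert p S) = ψ * η S * z p := by
      simp only [η]; rw [prod_insert hpS]; ring
    have h2 := cong_inv _ (cong_div _ (disc V.valuation c n hc hn0 (hP p hp).1 hV (ψ * η S) (z p)
      (hψη ψ hψ S hSP) (hP p hp).2.2.pow_eq_one))
    rw [inv_div] at h2
    have h3 : x (ψ * η S) / x (ψ * η (insert p S))
        = F c n (ψ * η S) / F c n (ψ * η S * z p) := by
      rw [h1]
      simp only [x]
      rw [div_div_div_cancel_right₀ two_ne_zero]
    rw [h3]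
    exact h2
  have hρ2 : ∀ (V : ValuationSubring K) (ψ : K), ψ ^ 4 = 1 → V.valuation (ρ ψ) = 1 := by
    intro V ψ hψ
    by_cases h : ∃ p ∈ P, V.valuation (p : K) < 1
    · obtain ⟨p, hp, hV⟩ := h
      exact cong_val _ (hρ1 V p hp hV ψ hψ)
    · have hv : V.valuation (u : K) = 1 :=
        v_eq_one_of_primes _ hu0 fun p hp hV => h ⟨p, hp, hV⟩
      simp only [ρ]
      rw [map_prod]
      refine prod_eq_one fun S hS => ?_
      rw [map_zpow₀, hx5 V _ (hψη ψ hψ S (mem_powerset.mp hS)) hv, one_zpow]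
  obtain ⟨p, hp⟩ := hPne
  have hρ3 : ∀ (φ : K →+* ℂ) (ψ : K), ψ ^ 4 = 1 → ‖φ (ρ ψ)‖ = 1 := by
    intro φ ψ hψ
    simp only [ρ]
    rw [alt_prod P (fun S => x (ψ * η S)) hp, map_prod, norm_prod]
    refine prod_eq_one fun S hS => ?_
    have hSP : S ⊆ P := (mem_powerset.mp hS).trans (erase_subset _ _)
    have hSP' : insert p S ⊆ P := insert_subset hp hSP
    have hu' : (u : ℝ) ≠ 0 := by exact_mod_cast hu0
    rw [map_zpow₀, norm_zpow, map_div₀, norm_div, hx6 φ _ (hψη ψ hψ S hSP),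
      hx6 φ _ (hψη ψ hψ _ hSP'), div_self hu', one_zpow]
  have hρ4 : ∀ ψ : K, ψ ^ 4 = 1 → ∃ s : ℕ, ρ ψ ^ (p ^ s) = 1 := by
    intro ψ hψ
    obtain ⟨N, hN, hN1⟩ := NumberField.Embeddings.pow_eq_one_of_norm_eq_one K ℂ
      (isIntegral_of_val (ρ ψ) fun V => (hρ2 V ψ hψ).le) (fun φ => hρ3 φ ψ hψ)
    obtain ⟨s, m, hm, rfl⟩ := Nat.exists_eq_pow_mul_and_not_dvd hN.ne' p (hP p hp).1.ne_one
    obtain ⟨V, hV⟩ := exists_val K (hP p hp).1
    refine ⟨s, eq_one_of_cong V.valuation (cong_pow _ (hρ1 V p hp hV ψ hψ) _) (N := m) ?_ ?_⟩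
    · rw [← pow_mul, hN1]
    · exact v_coprime _ hV ((Nat.Prime.coprime_iff_not_dvd (hP p hp).1).mpr hm)
  obtain ⟨V, hV⟩ := exists_val K Nat.prime_two
  have hV2 : V.valuation (2 : K) < 1 := by simpa using hV
  have hVu : V.valuation (u : K) = 1 := v_coprime _ hV (Nat.coprime_two_left.mpr hu)
  have hρ5 : ∀ ψ : K, ψ ^ 4 = 1 → ρ ψ = ρ 1 := by
    intro ψ hψ
    obtain ⟨s, hs⟩ := hρ4 ψ hψ
    obtain ⟨t, ht⟩ := hρ4 1 (one_pow _)
    have h0 : ρ 1 ≠ 0 := by
      intro h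
      have := hρ2 V 1 (one_pow _)
      rw [h] at this
      simp at this
    have h1 : ρ ψ / ρ 1 = 1 := by
      refine eq_one_of_cong V.valuation ?_ (N := p ^ (s + t)) ?_ ?_
      · simp only [ρ]
        rw [← prod_div_distrib]
        refine cong_prod _ _ _ fun S hS => ?_
        rw [← div_zpow]
        refine cong_zpow _ (cong_div _ ?_) _
        rw [one_mul, hx5 V _ (hηn S (mem_powerset.mp hS)) hVu]
        exact hx7 V hV2 ψ _ hψ (hηn S (mem_powerset.mp hS))
      · rw [div_pow, pow_add, pow_mul, hs, one_pow, mul_comm, pow_mul, ht, one_pow, div_one]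
      · refine v_coprime _ hV (Nat.Coprime.pow_right _ ?_)
        exact (Nat.coprime_primes Nat.prime_two (hP p hp).1).mpr (hP p hp).2.1.symm
    exact (div_eq_one_iff_eq h0).mp h1
  have hρ6 : ∀ ψ : K, ψ ^ 4 = 1 → x ψ = ρ 1 *
      ∏ S ∈ P.powerset.erase ∅, (x (ψ * η S) ^ ((-1 : ℤ) ^ S.card))⁻¹ := by
    intro ψ hψ
    rw [← hρ5 ψ hψ, prod_inv_distrib]
    simp only [ρ]
    rw [← mul_prod_erase _ _ (empty_mem_powerset P), mul_assoc, mul_inv_cancel₀]
    · simp [η]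
    · refine prod_ne_zero_iff.mpr fun S hS => zpow_ne_zero _ ?_
      exact hx0 _ (hψη ψ hψ S (mem_powerset.mp (mem_of_mem_erase hS)))
  have hgood : Good V.valuation x := by
    refine Good.congr ?_ hρ6
    refine (Good.const _ (hρ2 V 1 (one_pow _)).le).mul (Good.prod _ _ fun S hS => ?_)
    have hSP : S ⊆ P := mem_powerset.mp (mem_of_mem_erase hS)
    have hSne : S.Nonempty := nonempty_iff_ne_empty.mpr (ne_of_mem_erase hS)
    have hvη : V.valuation (η S) = 1 := v_root_of_unity _ hn0 (hηn S hSP)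
    rcases neg_one_pow_eq_or ℤ S.card with h | h
    · have hg : Good V.valuation
          (fun ψ => ((u : K) ^ 2)⁻¹ * F d n (ψ ^ 3 * (η S)⁻¹)) :=
        (Good.const _ (by simp [hVu])).mul (Good.F _ d n 3 (by simp [hvη]))
      refine hg.congr fun ψ hψ => ?_
      have hψ0 : ψ ≠ 0 := by rintro rfl; simp at hψ
      have h1 : ψ ^ 3 * (η S)⁻¹ = (ψ * η S)⁻¹ := by
        rw [mul_inv]
        congr 1
        exact (eq_inv_of_mul_eq_one_left (by rw [← hψ]; ring))
      have h2 := hψη ψ hψ S hSP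
      have h3 : ψ * η S ≠ 1 := eta_ne P z hP hSP hSne hψ
      rw [h, zpow_one, h1, ← hx1 _ (by rw [inv_pow, h2, inv_one]) (inv_ne_one.mpr h3),
        ← hx3 _ h2]
      have h5 := hx0 (ψ * η S)⁻¹ (by rw [inv_pow, h2, inv_one])
      rw [mul_inv (x (ψ * η S)), mul_assoc, inv_mul_cancel₀ h5, mul_one]
    · refine (Good.F _ d n 1 hvη.le).congr fun ψ hψ => ?_
      rw [h, zpow_neg_one, inv_inv, pow_one,
        hx1 _ (hψη ψ hψ S hSP) (eta_ne P z hP hSP hSne hψ)]
  have hι : IsPrimitiveRoot (ζ ^ (u ^ 2)) 4 :=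
    hζ.pow (Nat.pos_of_ne_zero hn0) (by rw [hn, mul_comm])
  set ι := ζ ^ (u ^ 2)
  have hι2 : ι ^ 2 = -1 := by
    have : IsPrimitiveRoot (ι ^ 2) 2 := hι.pow (by norm_num) (by norm_num)
    exact this.eq_neg_one_of_two_right
  have hι4 : ι ^ 4 = 1 := hι.pow_eq_one
  have g1 := hgood.sum_le hι2
  have g2 := (Good.F V.valuation d n 1 (a := 1) (by simp)).sum_le hι2
  simp only [pow_one, mul_one] at g2
  have hm1 : (-1 : K) ≠ 1 := by norm_num
  have hιne : ι ≠ 1 := by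
    intro h; rw [h] at hι2; norm_num at hι2
  have hιne' : -ι ≠ 1 := by
    intro h
    have : ι = -1 := by rw [← h]; ring
    rw [this] at hι2; norm_num at hι2
  rw [hx2, hx1 _ (hψn _ (by norm_num)) hm1, hx1 _ (hψn _ hι4) hιne,
    hx1 _ (hψn _ (by rw [← hι4]; ring)) hιne'] at g1
  have g3 := V.valuation.map_sub_le g1 g2
  have e1 : F d n (1 : K) + 2 * (u : K) ^ 2 + F d n (-1) + F d n ι + F d n (-ι)
      - (F d n 1 + F d n (-1) + F d n ι + F d n (-ι)) = 2 * (u : K) ^ 2 := by ring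
  have e2 : (4 : K) = 2 * 2 := by norm_num
  rw [e1, e2, map_mul, map_mul, map_pow, hVu, one_pow] at g3
  have h20 : V.valuation (2 : K) ≠ 0 := by simp
  exact absurd (le_of_mul_le_mul_left g3 (zero_lt_iff.mpr h20)) (not_le.mpr hV2)

end Vale.Agent.P033
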