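import Vale.Agent.P033.Disc

namespace Vale.Agent.P033

open Finset Polynomial

lemma isIntegral_of_val {K : Type} [Field K] (x : K)
    (h : ∀ V : ValuationSubring K, V.valuation x ≤ 1) : IsIntegral ℤ x := by
  have h1 : x ∈ (integralClosure (Subring.closure (∅ : Set K)) K).toSubring := by
    rw [← iInf_valuationSubring_superset]
    simp only [Subring.mem_iInf]
    intro V
    exact (V.1.valuation_le_one_iff x).mp (h V.1)
  have h2 : IsIntegral (Subring.closure (∅ : Set K)) x := h1
  have : Algebra.IsIntegral ℤ (Subring.closure (∅ : Set K)) := by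
    refine Algebra.isIntegral_of_surjective ?_
    rintro ⟨y, hy⟩
    rw [Subring.closure_empty, Subring.mem_bot] at hy
    obtain ⟨n, rfl⟩ := hy
    exact ⟨n, Subtype.ext (by simp)⟩
  exact isIntegral_trans x h2

lemma exists_val (K : Type) [Field K] [CharZero K] {p : ℕ} (hp : p.Prime) :
    ∃ V : ValuationSubring K, V.valuation (p : K) < 1 := by
  by_contra hcon
  push Not at hcon
  have hp0 : (p : K) ≠ 0 := by exact_mod_cast hp.ne_zero
  have h1 : IsIntegral ℤ ((p : K)⁻¹) := isIntegral_of_val _ fun V =>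
    (V.valuation.one_le_val_iff hp0).mp (hcon V)
  have h2 : IsIntegral ℤ (algebraMap ℚ K ((p : ℚ)⁻¹)) := by simpa using h1
  rw [isIntegral_algebraMap_iff (algebraMap ℚ K).injective] at h2
  obtain ⟨y, hy⟩ := IsIntegrallyClosed.isIntegral_iff.mp h2
  have hpq : (p : ℚ) ≠ 0 := by exact_mod_cast hp.ne_zero
  have h3 : (p : ℚ) * y = 1 := by
    have : (y : ℚ) = (p : ℚ)⁻¹ := by simpa using hy
    rw [this, mul_inv_cancel₀ hpq]
  have h4 : (p : ℤ) * y = 1 := by exact_mod_cast h3
  have h5 : (p : ℤ) ∣ 1 := ⟨y, h4.symm⟩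
  have h6 : p ∣ 1 := by exact_mod_cast h5
  exact hp.one_lt.ne' (Nat.dvd_one.mp h6)

variable {Γ : Type} [LinearOrderedCommGroupWithZero Γ] {K : Type} [Field K]

/-- The relation of being congruent to one. -/
lemma cong_mul (v : Valuation K Γ) {a b : K} (ha : v (a - 1) < 1) (hb : v (b - 1) < 1) :
    v (a * b - 1) < 1 := by
  have hb1 : v b = 1 := by
    have := v.map_one_add_of_lt hb
    simpa using this
  have : a * b - 1 = (a - 1) * b + (b - 1) := by ring
  rw [this]
  refine v.map_add_lt ?_ hb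
  rw [map_mul, hb1, mul_one]
  exact ha

lemma cong_val (v : Valuation K Γ) {a : K} (ha : v (a - 1) < 1) : v a = 1 := by
  have := v.map_one_add_of_lt ha
  simpa using this

lemma cong_inv (v : Valuation K Γ) {a : K} (ha : v (a - 1) < 1) : v (a⁻¹ - 1) < 1 := by
  have h1 := cong_val v ha
  have ha0 : a ≠ 0 := by rintro rfl; simp at h1
  have : a⁻¹ - 1 = -((a - 1) * a⁻¹) := by field_simp; ring
  rw [this, Valuation.map_neg, map_mul, map_inv₀, h1]
  simpa using ha

lemma cong_pow (v : Valuation K Γ) {a : K} (ha : v (a - 1) < 1) (k : ℕ) : v (a ^ k - 1) < 1 := by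
  induction k with
  | zero => simp
  | succ k ih => rw [pow_succ]; exact cong_mul v ih ha

lemma cong_zpow (v : Valuation K Γ) {a : K} (ha : v (a - 1) < 1) (k : ℤ) : v (a ^ k - 1) < 1 := by
  obtain ⟨m, rfl | rfl⟩ := k.eq_nat_or_neg
  · simpa using cong_pow v ha m
  · simpa using cong_inv v (cong_pow v ha m)

lemma cong_prod (v : Valuation K Γ) {ι : Type} (s : Finset ι) (f : ι → K)
    (h : ∀ i ∈ s, v (f i - 1) < 1) : v (∏ i ∈ s, f i - 1) < 1 := by
  classical
  induction s using Finset.induction_on with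
  | empty => simp
  | insert a s ha ih =>
    rw [prod_insert ha]
    exact cong_mul v (h a (mem_insert_self _ _)) (ih fun i hi => h i (mem_insert_of_mem hi))

lemma cong_div (v : Valuation K Γ) {a b : K} (h : v (a - b) < v b) : v (a / b - 1) < 1 := by
  have hb : b ≠ 0 := by rintro rfl; simp at h
  have hvb : v b ≠ 0 := (v.ne_zero_iff).mpr hb
  have : a / b - 1 = (a - b) / b := by field_simp
  rw [this, map_div₀]
  exact (div_lt_one₀ (zero_lt_iff.mpr hvb)).mpr h

/-- A root of unity of order prime to the residue characteristic and congruent to one is one. -/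
lemma eq_one_of_cong (v : Valuation K Γ) {σ : K} (h : v (σ - 1) < 1) {N : ℕ} (hN : σ ^ N = 1)
    (hv : v (N : K) = 1) : σ = 1 := by
  by_contra hne
  have h1 : ∑ i ∈ range N, σ ^ i = 0 := by
    have := mul_geom_sum σ N
    rw [hN, sub_self] at this
    exact (mul_eq_zero.mp this).resolve_left (sub_ne_zero.mpr hne)
  have h2 : v (∑ i ∈ range N, (σ ^ i - 1)) < 1 :=
    v.map_sum_lt one_ne_zero fun i _ => cong_pow v h i
  rw [sum_sub_distrib, h1] at h2
  simp [hv] at h2

/-- A root of unity whose order is a power of the residue characteristic is congruent to one. -/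
lemma cong_of_pow_prime (v : Valuation K Γ) {p : ℕ} (hp : p.Prime) (hvp : v (p : K) < 1) {σ : K}
    (s : ℕ) (h : σ ^ (p ^ s) = 1) : v (σ - 1) < 1 := by
  have hσ : v σ = 1 := v_root_of_unity v (pow_ne_zero s hp.ne_zero) h
  let R := v.integer
  have hσR : σ ∈ R := hσ.le
  obtain ⟨r, hr⟩ := exists_add_pow_prime_pow_eq hp ((⟨σ, hσR⟩ : R) - 1) 1 s
  have hr' := congrArg R.subtype hr
  simp only [sub_add_cancel, map_pow, Subring.subtype_apply, one_pow, mul_one, map_add, map_sub,
    map_one, map_mul, map_natCast, h] at hr'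
  have h2 : (σ - 1) ^ (p ^ s) = -((p : K) * (σ - 1) * r) := by linear_combination -hr'
  have h3 : v (σ - 1) ≤ 1 := v.map_sub_le hσ.le (by simp)
  have h4 : v (σ - 1) ^ (p ^ s) < 1 := by
    rw [← map_pow, h2, Valuation.map_neg, map_mul, map_mul]
    have : v (r : K) ≤ 1 := r.2
    calc v (p : K) * v (σ - 1) * v (r : K) ≤ v (p : K) * 1 * 1 := by gcongr
      _ < 1 := by simpa using hvp
  by_contra hcon
  exact absurd (one_le_pow₀ (not_lt.mp hcon)) (not_le.mpr h4)

end Vale.Agent.P033
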